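import Vale.Agent.P038.Mantel
import Vale.Agent.P038.Defs

section

/-!
# Second neighbourhoods when no vertex dominates a triangle
-/

namespace Vale.Agent.P038

open Finset

variable {V : Type*} [Fintype V]

/-- The final numerical contradiction. `δ` is the minimum out-weight, `β` the weight of `B_u`. -/
theorem final_ineq (l δ β : ℝ) (hl : 9 * l ^ 2 = 4 * l + 3) (hl0 : 0 < l) (hδ : 0 < δ)
    (h1 : 3 / 4 * δ ≤ β) (h2 : β < l * δ)
    (h : β * ((2 - l) * δ - β) - β ^ 2 / 4 + 3 / 4 * δ ^ 2 < l * δ ^ 2) : False := by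
  have hl1 : l < 85 / 100 := by nlinarith only [hl]
  have hl2 : 84 / 100 < l := by nlinarith only [hl, hl0]
  have e1 : 0 ≤ (β - 3 / 4 * δ) * (l * δ - β) :=
    mul_nonneg (by linarith only [h1]) (by linarith only [h2])
  -- f(β) = 5/4 (β - 3/4 δ)(l δ - β) + linear
  have key : β * ((2 - l) * δ - β) - β ^ 2 / 4 + 3 / 4 * δ ^ 2 - l * δ ^ 2
      = 5 / 4 * ((β - 3 / 4 * δ) * (l * δ - β)) +
        (17 / 16 - 9 / 4 * l) * δ * (β - l * δ) + (3 / 4 + l - 9 / 4 * l ^ 2) * δ ^ 2 := by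
    ring
  have e2 : 0 ≤ (17 / 16 - 9 / 4 * l) * δ * (β - l * δ) := by
    have : 0 ≤ (9 / 4 * l - 17 / 16) * δ * (l * δ - β) :=
      mul_nonneg (mul_nonneg (by linarith only [hl2]) hδ.le) (by linarith only [h2])
    nlinarith only [this]
  have e3 : (3 / 4 + l - 9 / 4 * l ^ 2) * δ ^ 2 = 0 := by
    have : 3 / 4 + l - 9 / 4 * l ^ 2 = 0 := by linarith only [hl]
    rw [this]; ring
  linarith only [h, e1, e2, e3]

open Classical in
/-- Weighted second neighbourhood theorem with the constant `l`, `9 l^2 = 4 l + 3`, for oriented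
graphs in which no vertex dominates a triangle. -/
theorem outTri_weighted [Nonempty V] (D : OGraph V) (hD : NoOutTriangle D) (w : V → ℝ)
    (hw : ∀ v, 0 ≤ w v) (l : ℝ) (hl : 9 * l ^ 2 = 4 * l + 3) (hl0 : 0 < l) :
    ∃ v, l * ∑ x ∈ N1 D v, w x ≤ ∑ x ∈ N2 D v, w x := by
  by_contra hcon
  push Not at hcon
  have hl1 : l < 85 / 100 := by nlinarith only [hl]
  have hl2 : 84 / 100 < l := by nlinarith only [hl, hl0]
  obtain ⟨v0, hv0⟩ := Finite.exists_min (fun v => ∑ x ∈ N1 D v, w x)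
  set δ := ∑ x ∈ N1 D v0, w x with hδ
  have hmin : ∀ v, δ ≤ ∑ x ∈ N1 D v, w x := hv0
  have hs0 : ∀ v, 0 ≤ ∑ x ∈ N2 D v, w x := fun v => Finset.sum_nonneg fun x _ => hw x
  have hδ0 : 0 < δ := by
    have h1 := hcon v0
    have h2 := hs0 v0
    have : 0 < l * δ := lt_of_le_of_lt h2 h1
    exact (pos_iff_pos_of_mul_pos this).1 hl0
  set A := N1 D v0 with hA
  set B := N2 D v0 with hB
  set b := ∑ x ∈ B, w x with hb
  have hbl : b < l * δ := hcon v0
  have hAB : Disjoint A B := by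
    rw [Finset.disjoint_left]
    intro x hx hx'
    exact (mem_N2.1 hx').2.1 (mem_N1.1 hx)
  -- out-neighbours of vertices of A are in A ∪ B
  have hout : ∀ x ∈ A, N1 D x ⊆ A ∪ B := by
    intro x hx y hy
    rw [Finset.mem_union]
    by_cases h : D.arc v0 y
    · exact Or.inl (mem_N1.2 h)
    · refine Or.inr (mem_N2.2 ⟨?_, h, x, mem_N1.1 hx, mem_N1.1 hy⟩)
      rintro rfl
      exact D.asymm _ _ (mem_N1.1 hx) (mem_N1.1 hy)
  have hsplit : ∀ x ∈ A, ∑ y ∈ N1 D x, w y =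
      ∑ y ∈ N1 D x ∩ A, w y + ∑ y ∈ N1 D x ∩ B, w y := by
    intro x hx
    rw [← Finset.sum_union]
    · refine Finset.sum_congr ?_ fun _ _ => rfl
      rw [← Finset.inter_union_distrib_left]
      exact (Finset.inter_eq_left.2 (hout x hx)).symm
    · exact Disjoint.mono Finset.inter_subset_right Finset.inter_subset_right hAB
  have hAne : A.Nonempty := by
    by_contra h
    rw [Finset.not_nonempty_iff_eq_empty] at h
    rw [hδ, h, Finset.sum_empty] at hδ0
    exact lt_irrefl _ hδ0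
  -- u minimises the inner out-weight
  obtain ⟨u, huA, humin⟩ := Finset.exists_min_image A (fun x => ∑ y ∈ N1 D x ∩ A, w y) hAne
  set a := ∑ y ∈ N1 D u ∩ A, w y with ha
  set Bu := N1 D u ∩ B with hBu
  set β := ∑ y ∈ Bu, w y with hβ
  have hβ0 : 0 ≤ β := Finset.sum_nonneg fun x _ => hw x
  have hdu : ∑ y ∈ N1 D u, w y = a + β := hsplit u huA
  have hduδ : δ ≤ a + β := by rw [← hdu]; exact hmin u
  have hβb : β ≤ b :=
    Finset.sum_le_sum_of_subset_of_nonneg Finset.inter_subset_right fun x _ _ => hw x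
  have ha0 : 0 < a := by nlinarith only [hbl, hduδ, hβb, hl, hβ0, hl0]
  -- Mantel for A
  have hM1 : ew D w A A ≤ δ ^ 2 / 4 :=
    mantel D w hw A fun x hx y hy z hz =>
      hD v0 x y z (mem_N1.1 hx) (mem_N1.1 hy) (mem_N1.1 hz)
  have haA : a * δ ≤ ew D w A A := by
    rw [ew_eq_inter, hδ, Finset.mul_sum]
    refine Finset.sum_le_sum fun x hx => ?_
    have := humin x hx
    have hx0 := hw x
    nlinarith only [this, hx0]
  have ha4 : a ≤ δ / 4 := by
    have : a * δ ≤ δ / 4 * δ := by nlinarith only [hM1, haA]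
    exact le_of_mul_le_mul_right this hδ0
  have hβ34 : 3 / 4 * δ ≤ β := by linarith only [hduδ, ha4]
  -- arcs from A to B
  have hAtoB : 3 / 4 * δ ^ 2 ≤ ew D w A B := by
    have h1 : ew D w A B = ∑ x ∈ A, w x * ∑ y ∈ N1 D x, w y - ew D w A A := by
      rw [ew_eq_inter, ew_eq_inter, ← Finset.sum_sub_distrib]
      refine Finset.sum_congr rfl fun x hx => ?_
      rw [hsplit x hx]; ring
    have h2 : δ ^ 2 ≤ ∑ x ∈ A, w x * ∑ y ∈ N1 D x, w y := by
      have : δ ^ 2 = ∑ x ∈ A, w x * δ := by rw [← Finset.sum_mul, ← hδ]; ring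
      rw [this]
      exact Finset.sum_le_sum fun x _ => mul_le_mul_of_nonneg_left (hmin x) (hw x)
    rw [h1]; linarith only [hM1, h2]
  -- y: an out-neighbour of u in A
  have hne : (N1 D u ∩ A).Nonempty := by
    by_contra h
    rw [Finset.not_nonempty_iff_eq_empty] at h
    rw [ha, h, Finset.sum_empty] at ha0
    exact lt_irrefl _ ha0
  obtain ⟨y, hy⟩ := hne
  rw [Finset.mem_inter] at hy
  have huy : D.arc u y := mem_N1.1 hy.1
  have hv0u : D.arc v0 u := mem_N1.1 huA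
  have hv0y : D.arc v0 y := mem_N1.1 hy.2
  have hyN : N1 D y ∩ A ⊆ N2 D u ∩ A := by
    intro t ht
    rw [Finset.mem_inter] at ht ⊢
    refine ⟨mem_N2.2 ⟨?_, ?_, y, huy, mem_N1.1 ht.1⟩, ht.2⟩
    · rintro rfl
      exact D.asymm _ _ huy (mem_N1.1 ht.1)
    · intro hut
      exact hD v0 u y t hv0u hv0y (mem_N1.1 ht.2) (Or.inl huy) (Or.inl (mem_N1.1 ht.1))
        (Or.inl hut)
  have hN2A : a ≤ ∑ x ∈ N2 D u ∩ A, w x :=
    (humin y hy.2).trans (Finset.sum_le_sum_of_subset_of_nonneg hyN fun x _ _ => hw x)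
  have hN2split : ∑ x ∈ N2 D u, w x = ∑ x ∈ N2 D u ∩ A, w x + ∑ x ∈ N2 D u \ A, w x := by
    rw [Finset.sum_inter_add_sum_sdiff]
  have hN2out : ∑ x ∈ N2 D u \ A, w x ≤ l * (a + β) - a := by
    have h1 := hcon u
    rw [hN2split, hdu] at h1
    linarith only [hN2A, h1]
  -- vertices of B_u
  have hz : ∀ z ∈ Bu, δ - (l * (a + β) - a) ≤
      ∑ t ∈ N1 D z ∩ A, w t + ∑ t ∈ N1 D z ∩ Bu, w t := by
    intro z hzB
    have hz1 := Finset.mem_inter.1 hzB
    have huz : D.arc u z := mem_N1.1 hz1.1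
    have hBuA : Disjoint A Bu := hAB.mono_right Finset.inter_subset_right
    have hsub : N1 D z ⊆ (N1 D z ∩ A) ∪ (N1 D z ∩ Bu) ∪ (N2 D u \ A) := by
      intro t ht
      simp only [Finset.mem_union, Finset.mem_inter, Finset.mem_sdiff]
      by_cases h1 : t ∈ A
      · exact Or.inl (Or.inl ⟨ht, h1⟩)
      by_cases h2 : t ∈ Bu
      · exact Or.inl (Or.inr ⟨ht, h2⟩)
      refine Or.inr ⟨mem_N2.2 ⟨?_, ?_, z, huz, mem_N1.1 ht⟩, h1⟩
      · rintro rfl
        exact h1 huA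
      · intro hut
        have : t ∈ A ∪ B := hout u huA (mem_N1.2 hut)
        rcases Finset.mem_union.1 this with h | h
        · exact h1 h
        · exact h2 (Finset.mem_inter.2 ⟨mem_N1.2 hut, h⟩)
    have h3 : ∑ t ∈ N1 D z, w t ≤
        ∑ t ∈ N1 D z ∩ A, w t + ∑ t ∈ N1 D z ∩ Bu, w t + ∑ t ∈ N2 D u \ A, w t := by
      refine (Finset.sum_le_sum_of_subset_of_nonneg hsub fun x _ _ => hw x).trans ?_
      have h4 := Finset.sum_union_inter (s₁ := (N1 D z ∩ A) ∪ (N1 D z ∩ Bu))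
        (s₂ := N2 D u \ A) (f := w)
      have h5 := Finset.sum_union_inter (s₁ := N1 D z ∩ A) (s₂ := N1 D z ∩ Bu) (f := w)
      have h6 : 0 ≤ ∑ i ∈ ((N1 D z ∩ A) ∪ (N1 D z ∩ Bu)) ∩ (N2 D u \ A), w i :=
        Finset.sum_nonneg fun x _ => hw x
      have h7 : 0 ≤ ∑ i ∈ (N1 D z ∩ A) ∩ (N1 D z ∩ Bu), w i :=
        Finset.sum_nonneg fun x _ => hw x
      linarith only [h4, h5, h6, h7]
    have h4 := hmin z
    linarith only [hN2out, h3, h4]
  -- sum over B_u
  have hsum : β * (δ - (l * (a + β) - a)) ≤ ew D w Bu A + ew D w Bu Bu := by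
    rw [ew_eq_inter, ew_eq_inter, ← Finset.sum_add_distrib, hβ, Finset.sum_mul]
    refine Finset.sum_le_sum fun z hzB => ?_
    have := mul_le_mul_of_nonneg_left (hz z hzB) (hw z)
    linarith only [this]
  have hM2 : ew D w Bu Bu ≤ β ^ 2 / 4 :=
    mantel D w hw Bu fun x hx y hy z hz =>
      hD u x y z (mem_N1.1 (Finset.mem_inter.1 hx).1) (mem_N1.1 (Finset.mem_inter.1 hy).1)
        (mem_N1.1 (Finset.mem_inter.1 hz).1)
  have hBA : ew D w Bu A ≤ ew D w B A := ew_mono_left D w hw Finset.inter_subset_right A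
  have htot : ew D w A B + ew D w B A ≤ δ * b := ew_add_le D w hw A B
  have hfin : δ * b < l * δ ^ 2 := by nlinarith only [hδ0, hbl]
  refine final_ineq l δ β hl hl0 hδ0 hβ34 (lt_of_le_of_lt hβb hbl) ?_
  have h8 : (2 - l) * δ - β ≤ δ - (l * (a + β) - a) := by nlinarith only [hduδ, hl, hl0]
  have h9 : β * ((2 - l) * δ - β) ≤ β * (δ - (l * (a + β) - a)) :=
    mul_le_mul_of_nonneg_left h8 hβ0
  linarith only [hAtoB, hsum, hM2, hBA, htot, hfin, h9]

end Vale.Agent.P038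
end
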